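import Crest.Agent.X262.Ms2.Keep
import Crest.Agent.X262.End36.Emb

/-!
# Row 262, road B (helper79): the ends of a master space

* `p0 h` : the place `t ↦ 0`; `dom_p0`, `ker_p0` : the local rings `lpR u L 0`;
* `End X B` : all local rings `lpR (c z • t) (lp z) 0` are points of `B`;
* `End.i`, `i_map`, `isEmb`, `mem_range`, `isDv`, `isDv_sub`, `isDv_sec`, `map_i`, `rs`, `lpb`.
-/

set_option autoImplicit false

noncomputable section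

namespace Crest.Agent.X262.End79

open Crest.Agent.X277 Crest.Agent.X277.Lef Crest.Agent.X277.AN.G1 Crest.Agent.X277.Cns
  Crest.Agent.X277.BD Crest.Agent.X277.BD.Br
open Crest.Agent.X262.Coh Crest.Agent.X262.Gwb Crest.Agent.X262.Ms2

section Loc

variable {F E : Type} [Field F] [Algebra ℂ F] [Field E] [Algebra ℂ E] {ρ : F →ₐ[ℂ] E} {t u : E}
  (h : IsRF ρ t)

/-- the place `t ↦ 0` -/
def p0 : Plc E F := plcR h (Plc.ofHom (AlgHom.id ℂ F)) 0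

theorem p0_ρ (a : F) : ρ a ∈ (p0 h).O ∧ (p0 h).π (ρ a) = a :=
  plcR_π h 0 (p := Plc.ofHom (AlgHom.id ℂ F)) Algebra.mem_top

theorem p0_t : t ∈ (p0 h).O ∧ (p0 h).π t = 0 := plcR_τ h _ 0

theorem p0_mul_t {g : E} (hg : g ∈ (p0 h).O) : g * t ∈ (p0 h).O ∧ (p0 h).π (g * t) = 0 :=
  ⟨mul_mem hg (p0_t h).1, by rw [Plc.π_mul _ hg (p0_t h).1, (p0_t h).2, mul_zero]⟩

theorem p0_scale (c : F) : ρ c * t ∈ (p0 h).O ∧ (p0 h).π (ρ c * t) = 0 := p0_mul_t h (p0_ρ h c).1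

theorem p0_add (a : F) {g : E} (hg : g ∈ (p0 h).O) :
    ρ a + g * t ∈ (p0 h).O ∧ (p0 h).π (ρ a + g * t) = a :=
  ⟨add_mem (p0_ρ h a).1 (p0_mul_t h hg).1, by
    rw [Plc.π_add _ (p0_ρ h a).1 (p0_mul_t h hg).1, (p0_ρ h a).2, (p0_mul_t h hg).2, add_zero]⟩

variable {c : F} (hc : c ≠ 0) (L : LP F)

theorem dom_p0 : (lpR (h.scale hc) L 0).Dom (L.comap (p0 h)) := by
  refine lpR_dom _ ⟨fun a ha => ⟨Algebra.mem_top, (p0_ρ h a).1, ?_⟩, fun a _ => ?_⟩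
    ⟨(p0_scale h c).1, by rw [(p0_scale h c).2]; exact zero_mem _⟩ ?_
  · change (p0 h).π (ρ a) ∈ L.O
    rwa [(p0_ρ h a).2]
  · change L.v ((p0 h).π (ρ a)) = L.v a
    rw [(p0_ρ h a).2]
  · rw [LP.comap_v, (p0_scale h c).2, LP.v_zero]

theorem ra_split {A : Subalgebra ℂ F} {a : E} (ha : a ∈ ra ρ A u) :
    ∃ b ∈ A, ∃ g ∈ ra ρ A u, a = ρ b + g * u := by
  obtain ⟨p, rfl⟩ := ha
  refine ⟨p.coeff 0, (p.coeff 0).2, evA ρ A u p.divX, ⟨_, rfl⟩, ?_⟩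
  conv_lhs => rw [← p.divX_mul_X_add]
  change evA ρ A u _ = _
  rw [map_add, map_mul, evA_X, evA_C, add_comm]

theorem ker_p0 {f : E} (hf : f ∈ (lpR (h.scale hc) L 0).O) :
    (p0 h).π f = 0 ↔ f / (ρ c * t) ∈ (lpR (h.scale hc) L 0).O := by
  have h1 := dom_p0 h hc L
  have h2 := lpR_of (h.scale hc) (L := L) (c := 0)
  have h3 := (h.scale hc).t_ne
  constructor
  · intro h0
    obtain ⟨a, ha, b, hb, h4, h5⟩ := h2.loc f hf
    obtain ⟨a₀, -, g, hg, rfl⟩ := ra_split ha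
    have h6 := Plc.π_mul _ (h1.le hf).1 (h1.le (h2.le hb)).1
    rw [h5, h0, zero_mul, ← mul_assoc,
      (p0_add h a₀ (mul_mem (h1.le (h2.le hg)).1 (p0_ρ h c).1)).2] at h6
    rw [h6, map_zero, zero_add] at h5
    rw [show f / (ρ c * t) = g / b by
      rw [div_eq_div_iff h3 (LP.ne_zero_of_ne h4), h5]]
    exact LP.div_mem (h2.le hg) h4
  · intro h4
    rw [← div_mul_cancel₀ f h3, Plc.π_mul _ (h1.le h4).1 (p0_scale h c).1, (p0_scale h c).2,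
      mul_zero]

end Loc

/-- an end: `X × {0}` lies in `B` -/
structure End (X B : SV) where
  /-- the functions on `X` -/
  ρ : X.F →ₐ[ℂ] B.F
  /-- the parameter -/
  t : B.F
  rf : IsRF ρ t
  /-- the local scalars -/
  c : X.Pt → X.F
  c_ne : ∀ z, c z ≠ 0
  ex : ∀ z, ∃ w : B.Pt, lp w = lpR (rf.scale (c_ne z)) (lp z) 0

namespace End

variable {X B : SV} (D : End X B)

/-- the local equation of the end -/
abbrev u (z : X.Pt) : B.F := D.ρ (D.c z) * D.t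

/-- the embedding -/
def i : Hom X B where
  p := p0 D.rf
  reg z := by
    obtain ⟨w, hw⟩ := D.ex z
    obtain ⟨k, hk⟩ := exists_pat w
    exact ⟨k, fun j => (dom_p0 D.rf (D.c_ne z) (lp z)).le (hw ▸ y_mem hk j)⟩

theorem i_p : D.i.p = p0 D.rf := rfl

theorem lp_i (z : X.Pt) : lp (D.i.map z) = lpR (D.rf.scale (D.c_ne z)) (lp z) 0 := by
  obtain ⟨w, hw⟩ := D.ex z
  rw [← hw, D.i.map_eq (y := w) (hw ▸ dom_p0 D.rf (D.c_ne z) (lp z))]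

theorem π_ρ (a : X.F) : D.i.p.π (D.ρ a) = a := (p0_ρ D.rf a).2

theorem ρ_mem {z : X.Pt} {a : X.F} (ha : a ∈ (lp z).O) : D.ρ a ∈ (lp (D.i.map z)).O := by
  rw [lp_i]
  exact π_mem_lpR _ ha

theorem ev_ρ {z : X.Pt} {a : X.F} (ha : a ∈ (lp z).O) : ev (D.ρ a) (D.i.map z) = ev a z := by
  rw [D.i.ev_map (D.ρ_mem ha), π_ρ]

theorem u_mem (z : X.Pt) : D.u z ∈ (lp (D.i.map z)).O := by
  rw [lp_i]
  exact τ_mem_lpR _

theorem ev_u (z : X.Pt) : ev (D.u z) (D.i.map z) = 0 := by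
  unfold ev
  rw [lp_i]
  exact lpR_v_τ _

theorem u_ne (z : X.Pt) : D.u z ≠ 0 := (D.rf.scale (D.c_ne z)).t_ne

theorem ker (z : X.Pt) {f : B.F} (hf : f ∈ (lp (D.i.map z)).O) :
    D.i.p.π f = 0 ↔ f / D.u z ∈ (lp (D.i.map z)).O := by
  rw [lp_i] at hf ⊢
  exact ker_p0 D.rf (D.c_ne z) _ hf

theorem isEmb : IsEmb D.i :=
  ⟨fun z z' h => eq_of_le fun a ha => by
    have h1 := D.ρ_mem ha
    rw [h] at h1
    simpa only [π_ρ] using D.i.π_mem h1, fun _ g hg => ⟨_, D.ρ_mem hg, D.π_ρ g⟩⟩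

/-- a point over `z` at which the local equation vanishes is the point of the end -/
theorem eq_i {z : X.Pt} {w : B.Pt} (h1 : ∀ a ∈ (lp z).O, D.ρ a ∈ (lp w).O)
    (h2 : D.u z ∈ (lp w).O) (h3 : ev (D.u z) w = 0) : D.i.map z = w := by
  refine eq_of_le ?_
  have h4 := lpR_le (D.rf.scale (D.c_ne z)) h1 h2
  rw [show (lp w).v (D.ρ (D.c z) * D.t) = 0 from h3] at h4
  rwa [lp_i]

theorem mem_range {w : B.Pt} : w ∈ Set.range D.i.map ↔ ∃ z, (∀ a ∈ (lp z).O, D.ρ a ∈ (lp w).O) ∧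
    D.u z ∈ (lp w).O ∧ ev (D.u z) w = 0 :=
  ⟨fun ⟨z, hz⟩ => ⟨z, hz ▸ ⟨fun _ => D.ρ_mem, D.u_mem z, D.ev_u z⟩⟩,
    fun ⟨z, h1, h2, h3⟩ => ⟨z, D.eq_i h1 h2 h3⟩⟩

theorem isDv {a : BD ℂ B.F} (h1 : ∀ z, At a (D.i.map z) (D.u z)⁻¹)
    (h2 : ∀ w, w ∉ Set.range D.i.map → At a w 1) : IsDv D.i a :=
  ⟨D.isEmb, h2, fun z => ⟨D.u z, D.u_mem z, h1 z, fun _ hf => D.ker z hf⟩⟩

/-- the difference of two divisors, given by local generators -/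
theorem isDv_sub {a b : BD ℂ B.F}
    (h1 : ∀ z, ∃ f g, At a (D.i.map z) f ∧ At b (D.i.map z) g ∧ ev (g / f / D.u z) (D.i.map z) ≠ 0)
    (h2 : ∀ w, w ∉ Set.range D.i.map → ∃ f, At a w f ∧ At b w f) : IsDv D.i (a - b) := by
  refine D.isDv (fun z => ?_) fun w hw => ?_
  · obtain ⟨f, g, h3, h4, h5⟩ := h1 z
    refine (h3.sub h4).of_ev' ?_
    rwa [show (D.u z)⁻¹ / (f / g) = g / f / D.u z by
      rw [div_eq_mul_inv, inv_div, mul_comm, ← div_eq_mul_inv]]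
  · obtain ⟨f, h3, h4⟩ := h2 w hw
    simpa only [div_self h3.ne] using h3.sub h4

/-- the zero divisor of a section `s` of `a` -/
theorem isDv_sec {a : BD ℂ B.F} {s : B.F} (hs : s ≠ 0)
    (h1 : ∀ z, At a (D.i.map z) (s / D.u z)) (h2 : ∀ w, ¬ At a w s → w ∈ Set.range D.i.map) :
    IsDv D.i (a - pr ℂ s) :=
  D.isDv_sub (fun z => ⟨_, s, h1 z, at_pr _ hs, by
    rw [div_div_cancel₀ hs, div_self (D.u_ne z)]
    exact (LP.v_one (lp (D.i.map z))).trans_ne one_ne_zero⟩)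
    fun w hw => ⟨s, by_contra fun h => hw (h2 w h), at_pr _ hs⟩

/-- compatibility with projections -/
theorem map_i {Z : SV} (ζ : Hom B Z) (k : Hom X Z)
    (h : ∀ f ∈ k.p.O, f ∈ ζ.p.O ∧ ζ.p.π f = D.ρ (k.p.π f)) (z : X.Pt) :
    ζ.map (D.i.map z) = k.map z :=
  ζ.map_eq (dom_le fun f hf => by
    have h1 := h f (k.mem_O hf)
    exact ⟨h1.1, h1.2 ▸ D.ρ_mem (k.π_mem hf)⟩)

/-- restriction of a tuple to the end -/
theorem rs {T : Tup B.F} {p : Tup X.F} (e : T.io ≃ p.io) (v : B.F)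
    (h : ∀ j, ∃ g ∈ D.i.p.O, T.y j / v = D.ρ (p.y (e j)) + g * D.t) : Rs D.i T p := by
  refine ⟨e, v, 1, fun j => ?_, fun j => ?_⟩ <;> obtain ⟨g, hg, h1⟩ := h j <;> rw [h1]
  · exact (p0_add D.rf _ hg).1
  · rw [one_mul]
    exact (p0_add D.rf _ hg).2.symm

/-- the line bundle of the restricted tuple -/
theorem lpb {T : Tup B.F} {p : Tup X.F} (h : Rs D.i T p) (h0 : ∃ j, p.y j ≠ 0) (hT : T.Reg B) :
    LPb D.i T.bd p.bd := by
  obtain ⟨e, u, c, hc, h1, h2, h3⟩ := End36.rs_key h h0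
  refine ⟨u / D.ρ c, fun x g hg => ?_⟩
  obtain ⟨j, hj⟩ := End36.exists_at hT (D.i.map x)
  have h5 := hg.ev_div_ne hj
  have h6 := LP.mem_of_ne h5
  have h7 := (h3 x j hj).2.1.mul_unit (f := D.i.p.π (g / T.y j))
    (by rw [← D.i.ev_map h6]; exact h5)
  rwa [h2, ← D.π_ρ c, ← D.i.p.π_mul (p0_ρ D.rf c).1 (h1 j),
    ← D.i.p.π_mul (D.i.mem_O h6) (mul_mem (p0_ρ D.rf c).1 (h1 j)),
    show g / T.y j * (D.ρ c * (T.y j / u)) = g / (u / D.ρ c) by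
      rw [div_div_eq_mul_div, mul_left_comm, div_mul_div_cancel₀ hj.ne, mul_div_assoc',
        mul_comm]] at h7

end End

end Crest.Agent.X262.End79
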