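import Crest.Agent.X262.Ms2.Tup
import Crest.Agent.X262.End36.Emb

/-!
# Row 262, road B (helper79): the records of the master space

* `isE_of`, `isE_mul`, `cod_of_eq`, `cod_of_zero`, `m1` : embeddings;
* `pure_of` : a tuple whose restriction comes from the first factor;
* `mem_range_of_gen` : the values of a place on a local ring.
-/

set_option autoImplicit false

noncomputable section

namespace Crest.Agent.X262.End79

open Crest.Agent.X277 Crest.Agent.X277.Lef Crest.Agent.X277.AN.G1 Crest.Agent.X277.Cns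
  Crest.Agent.X277.BD Crest.Agent.X277.BD.Br
open Crest.Agent.X262.Coh Crest.Agent.X262.Gwb Crest.Agent.X262.Ms2
open Crest.Agent.R274.Prod1_134 (isPF pα pβ)

theorem isE_of {Y : SV} {J : Type} (T : J → Tup Y.F)
    (h : ∀ x : Y.Pt, ∃ A : Set Y.F, (lp x).Of (Algebra.adjoin ℂ A) ∧ ∀ g ∈ A, ∃ j i i',
      (T j).y i' ≠ 0 ∧ (∀ l, (T j).y l / (T j).y i' ∈ (lp x).O) ∧ g = (T j).y i / (T j).y i') :
    End36.IsE T := fun x f hf => by
  obtain ⟨A, h1, h2⟩ := h x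
  have h3 : Algebra.adjoin ℂ A ≤ Algebra.adjoin ℂ (crdAt T x) := Algebra.adjoin_mono fun g hg => by
    obtain ⟨j, i, i', h4, h5, h6⟩ := h2 g hg
    exact ⟨j, i, i', at_mxf h4 h5, h6⟩
  obtain ⟨a, ha, c, hc, h4⟩ := h1.loc f hf
  exact ⟨a, h3 ha, c, h3 hc, h4⟩

section Cod

variable {F J : Type} [Field F] [Algebra ℂ F] [DecidableEq J] (T : J → Tup F)

/-- the field `Emb.cod` -/
abbrev Cod : Prop :=
  ∃ (q : MvPolynomial (Σ j, (T j).io) ℂ) (κ : J → ℕ), q ≠ 0 ∧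
    q.IsWeightedHomogeneous (fun v => (Pi.single v.1 1 : J → ℕ)) κ ∧
    MvPolynomial.aeval (fun v : Σ j, (T j).io => (T v.1).y v.2) q = 0

theorem cod_of_zero (j : J) (i : (T j).io) (h : (T j).y i = 0) : Cod T :=
  ⟨MvPolynomial.X ⟨j, i⟩, Pi.single j 1, MvPolynomial.X_ne_zero _,
    MvPolynomial.isWeightedHomogeneous_X _ _ _, (MvPolynomial.aeval_X _ _).trans h⟩

theorem X_sub_X {σ J E : Type} [Field E] [Algebra ℂ E] (w : σ → J → ℕ) (y : σ → E) {a b : σ}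
    (hne : a ≠ b) (hw : w b = w a) (hy : y a = y b) : ∃ (q : MvPolynomial σ ℂ) (κ : J → ℕ),
      q ≠ 0 ∧ q.IsWeightedHomogeneous w κ ∧ MvPolynomial.aeval y q = 0 := by
  refine ⟨MvPolynomial.X a - MvPolynomial.X b, w a,
    sub_ne_zero.2 (MvPolynomial.X_injective.ne hne),
    (MvPolynomial.weightedHomogeneousSubmodule ℂ w (w a)).sub_mem
      (MvPolynomial.isWeightedHomogeneous_X _ w a)
      (hw ▸ MvPolynomial.isWeightedHomogeneous_X _ w b), ?_⟩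
  rw [map_sub, MvPolynomial.aeval_X, MvPolynomial.aeval_X, hy, sub_self]

theorem cod_of_eq (j : J) (i i' : (T j).io) (hne : i ≠ i') (h : (T j).y i = (T j).y i') :
    Cod T :=
  X_sub_X (fun v : Σ j, (T j).io => (Pi.single v.1 1 : J → ℕ)) (fun v => (T v.1).y v.2)
    (a := ⟨j, i⟩) (b := ⟨j, i'⟩)
    (fun h0 => hne (sigma_mk_injective (β := fun j => (T j).io) h0)) rfl h

end Cod

section M1

variable {K : Type} [Field K] [Algebra ℂ K] {P : PModel ℂ K}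

/-- a tuple whose non-zero coordinates are the products `a j * y i` -/
theorem gen_mul {ι : Type} {a : ι → K} (hg : Gn P a) (t : Tup K)
    (h : ∀ o, t.y o = 0 ∨ ∃ j i, t.y o = a j * P.y i) (g : ι → Fin (P.N + 1) → t.io)
    (h' : ∀ j i, t.y (g j i) = a j * P.y i) {x : Pts P} {i : Fin (P.N + 1)} (hi : x ∈ pat P i) :
    ∃ j, a j ≠ 0 ∧ t.y (g j i) ≠ 0 ∧ ∀ l, t.y l / t.y (g j i) ∈ (lp x).O := by
  obtain ⟨j, h1, h2⟩ := hg x
  refine ⟨j, h1, h' j i ▸ mul_ne_zero h1 (P.y_ne i), fun l => ?_⟩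
  rcases h l with h3 | ⟨j', i', h3⟩
  · rw [h3, zero_div]
    exact zero_mem _
  · rw [h3, h', mul_div_mul_comm]
    exact mul_mem (h2 _) (y_mem hi _)

theorem isE_mul {ι J : Type} {a : ι → K} (hg : Gn P a) (T : J → Tup K) (k : J)
    (h : ∀ o, (T k).y o = 0 ∨ ∃ j i, (T k).y o = a j * P.y i)
    (g : ι → Fin (P.N + 1) → (T k).io) (h' : ∀ j i, (T k).y (g j i) = a j * P.y i) :
    End36.IsE (Y := sv P) T := isE_of (Y := sv P) T fun x => by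
  obtain ⟨i, hi⟩ := exists_pat x
  obtain ⟨j, h1, h2, h3⟩ := gen_mul hg (T k) h g h' hi
  refine ⟨_, lp_of hi, ?_⟩
  rintro _ ⟨l, rfl⟩
  exact ⟨k, g j l, g j i, h2, h3, by rw [h', h', mul_div_mul_left _ _ h1]⟩

theorem gn_mul {ι : Type} {a : ι → K} (hg : Gn P a) (t : Tup K)
    (h : ∀ o, t.y o = 0 ∨ ∃ j i, t.y o = a j * P.y i) (g : ι → Fin (P.N + 1) → t.io)
    (h' : ∀ j i, t.y (g j i) = a j * P.y i) : Gn P t.y := fun x => by
  obtain ⟨i, hi⟩ := exists_pat x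
  obtain ⟨j, -, h2⟩ := gen_mul hg t h g h' hi
  exact ⟨_, h2⟩

/-- two such tuples have the same divisor -/
theorem bd_eq_of {t t' : Tup K} (h : ∀ o, t.y o = 0 ∨ ∃ o', t.y o = t'.y o')
    (h' : ∀ o, t'.y o = 0 ∨ ∃ o', t'.y o = t.y o') (h0 : ∃ o, t.y o ≠ 0) : t.bd = t'.bd := by
  refine eq_mxf (fun o => ?_) fun V => ?_
  · rcases h' o with h1 | ⟨o', h1⟩ <;> rw [h1]
    exacts [zero_mem _, mem_Sec_mxf _ _]
  · obtain ⟨o, ho⟩ := exists_val_mxf (k := ℂ) h0 V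
    rcases h o with h1 | ⟨o', h1⟩
    · exact absurd h1 (ne_of_val ho)
    · exact ⟨o', h1 ▸ ho⟩

theorem tm1_cases {n : ℕ} (a : Fin (n + 1) → K) (o : (tm1 a P).io) :
    (tm1 a P).y o = 0 ∨ ∃ j i, (tm1 a P).y o = a j * P.y i := by
  rcases o with _ | p
  exacts [Or.inl rfl, Or.inr ⟨p.1, p.2, rfl⟩]

theorem gn_tm1 {n : ℕ} {a : Fin (n + 1) → K} (hg : Gn P a) : Gn P (tm1 a P).y :=
  gn_mul hg _ (tm1_cases a) (fun j i => some (j, i)) fun _ _ => rfl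

variable (P) in
/-- the embedding `(0, a · y)` -/
def m1 {n : ℕ} (a : Fin (n + 1) → K) (_ha : ∀ j, a j ≠ 0) (hg : Gn P a) : Gwb.Emb (sv P) where
  J := Unit
  T _ := tm1 a P
  reg _ := ⟨(gn_tm1 hg).exists_ne, mxf_mem (gn_tm1 hg)⟩
  emb := isE_mul hg (fun _ : Unit => tm1 a P) () (tm1_cases a) (fun j i => some (j, i))
    fun _ _ => rfl
  nt _ := ⟨⟨none, some (0, 0), (Option.some_ne_none _).symm⟩⟩
  cod := cod_of_zero (fun _ : Unit => tm1 a P) () none rfl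

theorem m1_T {n : ℕ} (a : Fin (n + 1) → K) (ha : ∀ j, a j ≠ 0) (hg : Gn P a)
    (k : (m1 P a ha hg).J) : (m1 P a ha hg).T k = tm1 a P := rfl

instance {n : ℕ} (a : Fin (n + 1) → K) (ha : ∀ j, a j ≠ 0) (hg : Gn P a) :
    Subsingleton (m1 P a ha hg).J := inferInstanceAs (Subsingleton Unit)

end M1

theorem pure_of {Y S B : SV} (i : Hom (Y.prod S) B) (T : Tup B.F) (hT : T.Reg B) (u : B.F)
    (r : T.io → Y.F) (h0 : ∃ l, r l ≠ 0)
    (h : ∀ l, T.y l / u ∈ i.p.O ∧ i.p.π (T.y l / u) = pα ℂ Y.F S.F (r l)) :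
    (Tup.mk T.io r).Reg Y ∧ ∃ p : Tup (Y.prod S).F, p.Reg _ ∧ Rs i T p ∧
      Rs (fst Y S) (Tup.mk T.io r) p := by
  let p : Tup (Y.prod S).F := ⟨T.io, fun l => pα ℂ Y.F S.F (r l)⟩
  have h1 : Rs i T p := ⟨Equiv.refl _, u, 1, fun l => (h l).1, fun l => by
    rw [one_mul, (h l).2]; rfl⟩
  have h2 : p.Reg _ := End36.rs_reg h1 (h0.imp fun l hl => (map_ne_zero _).2 hl) hT
  obtain ⟨s⟩ : Nonempty S.Pt := inferInstance
  have h3 : ∀ a, pα ℂ Y.F S.F a ∈ (pair (idH Y) (cst Y.P s : Hom Y S)).p.O ∧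
      (pair (idH Y) (cst Y.P s : Hom Y S)).p.π (pα ℂ Y.F S.F a) = a := fun a =>
    plcP_left (isPF ℂ Y.F S.F) _ (p := (idH Y).p) Algebra.mem_top
  refine ⟨End36.rs_reg (μ := pair (idH Y) (cst Y.P s : Hom Y S)) ⟨Equiv.refl _, 1, 1,
    fun l => ?_, fun l => ?_⟩ h0 h2, p, h2, h1, Equiv.refl _, 1, 1, fun _ => Algebra.mem_top,
    fun l => ?_⟩
  · rw [div_one]
    exact (h3 _).1
  · rw [div_one, one_mul]
    exact (h3 _).2.symm
  · rw [div_one, one_mul]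
    rfl

/-- the same for the second factor -/
theorem pure_snd {Y S B : SV} (i : Hom (Y.prod S) B) (T : Tup B.F) (u : B.F)
    (e : T.io ≃ Fin (S.P.N + 1))
    (h : ∀ l, T.y l / u ∈ i.p.O ∧ i.p.π (T.y l / u) = pβ ℂ Y.F S.F (S.P.y (e l))) :
    ∃ p : Tup (Y.prod S).F, p.Reg _ ∧ Rs i T p ∧ Rs (snd Y S) (ownT S) p := by
  let p : Tup (Y.prod S).F := ⟨Fin (S.P.N + 1), fun l => pβ ℂ Y.F S.F (S.P.y l)⟩
  have h1 : Rs (snd Y S) (ownT S) p := ⟨Equiv.refl _, 1, 1, fun _ => Algebra.mem_top, fun l => by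
    rw [div_one, one_mul]; rfl⟩
  exact ⟨p, End36.rs_reg h1 ⟨0, (map_ne_zero _).2 (S.P.y_ne 0)⟩ (End36.reg_own S),
    ⟨e, u, 1, fun l => (h l).1, fun l => by rw [one_mul, (h l).2]⟩, h1⟩

theorem mem_range_of_gen {K M E : Type} [Field K] [Algebra ℂ K] [Field M] [Algebra ℂ M] [Field E]
    [Algebra ℂ E] (α : K →ₐ[ℂ] M) (p : Plc E M) (L : LP E) {A : Set E}
    (h1 : L.Of (Algebra.adjoin ℂ A)) (h2 : L.O ≤ p.O) (h3 : ∀ f ∈ L.O, L.v f ≠ 0 → p.π f ≠ 0)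
    (h4 : ∀ g ∈ A, p.π g ∈ Set.range α) : ∀ f ∈ L.O, p.π f ∈ Set.range α := by
  have h5 : ∀ a ∈ Algebra.adjoin ℂ A, p.π a ∈ Set.range α := fun a ha => by
    refine Algebra.adjoin_induction (p := fun a _ => p.π a ∈ Set.range α) h4
      (fun c => ⟨algebraMap ℂ K c, by rw [α.commutes, p.π_alg]⟩) ?_ ?_ ha
    · rintro a b ha hb ⟨f, hf⟩ ⟨g, hg⟩
      exact ⟨f + g, by rw [map_add, hf, hg, p.π_add (h2 (h1.le ha)) (h2 (h1.le hb))]⟩
    · rintro a b ha hb ⟨f, hf⟩ ⟨g, hg⟩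
      exact ⟨f * g, by rw [map_mul, hf, hg, p.π_mul (h2 (h1.le ha)) (h2 (h1.le hb))]⟩
  intro f hf
  obtain ⟨a, ha, c, hc, h6, h7⟩ := h1.loc f hf
  obtain ⟨a', ha'⟩ := h5 a ha
  obtain ⟨c', hc'⟩ := h5 c hc
  refine ⟨a' / c', ?_⟩
  rw [map_div₀, ha', hc', ← h7, p.π_mul (h2 hf) (h2 (h1.le hc)),
    mul_div_cancel_right₀ _ (h3 c (h1.le hc) h6)]

end Crest.Agent.X262.End79
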