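import Crest.Agent.X262.End79.Main
import Crest.Agent.X262.Form88.Snc

/-!
# Row 262, road B (helper79): ends with arbitrary local equations; birationality

* `mkEnd`, `exists_end` : the end from arbitrary witnesses; `End.Wit` and its calculus;
* `bim_of`, `iso_of`, `iso_of_of` : the map to a product.
-/

set_option autoImplicit false

noncomputable section

namespace Crest.Agent.X262.End79

open Crest.Agent.X277 Crest.Agent.X277.Lef Crest.Agent.X277.AN.G1 Crest.Agent.X277.Cns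
  Crest.Agent.X277.BD Crest.Agent.X277.BD.Br
open Crest.Agent.X262.Coh Crest.Agent.X262.Gwb Crest.Agent.X262.Ms2
open Crest.Agent.X262.Form88 (Iso)
open Crest.Agent.R274.Prod1_134 (IsPF isPF)

namespace End

variable {X B : SV} (D : End X B)

/-- `u` is a local equation of the end at `z`, and `w` is the point of the end -/
def Wit (z : X.Pt) (u : B.F) (w : B.Pt) : Prop :=
  ∃ (hu : IsRF D.ρ u) (c : X.F), c ≠ 0 ∧ u = D.t * D.ρ c ∧ lp w = lpR hu (lp z) 0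

theorem wit (z : X.Pt) : D.Wit z (D.u z) (D.i.map z) :=
  ⟨D.rf.scale (D.c_ne z), D.c z, D.c_ne z, mul_comm _ _, D.lp_i z⟩

variable {D} {z : X.Pt} {u : B.F} {w : B.Pt}

theorem Wit.lp' (h : D.Wit z u w) :
    ∃ (c : X.F) (hc : c ≠ 0), u = D.ρ c * D.t ∧ lp w = lpR (D.rf.scale hc) (lp z) 0 := by
  obtain ⟨hu, c, hc, h1, h2⟩ := h
  rw [mul_comm] at h1
  subst h1
  exact ⟨c, hc, rfl, h2⟩

theorem Wit.map (h : D.Wit z u w) : D.i.map z = w := by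
  obtain ⟨c, hc, -, h2⟩ := h.lp'
  exact D.i.map_eq (h2 ▸ dom_p0 D.rf hc (lp z))

theorem Wit.ne (h : D.Wit z u w) : u ≠ 0 := h.1.t_ne

theorem Wit.mem (h : D.Wit z u w) : u ∈ (lp w).O := by
  obtain ⟨hu, -, -, -, h2⟩ := h
  exact h2 ▸ τ_mem_lpR hu

theorem Wit.π (h : D.Wit z u w) : D.i.p.π u = 0 := by
  obtain ⟨c, hc, rfl, -⟩ := h.lp'
  exact (p0_scale D.rf c).2

theorem Wit.ev_eq (h : D.Wit z u w) : ev u w = 0 := by
  obtain ⟨hu, -, -, -, h2⟩ := h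
  unfold ev
  exact h2 ▸ lpR_v_τ hu

theorem Wit.ker (h : D.Wit z u w) {f : B.F} (hf : f ∈ (lp w).O) :
    D.i.p.π f = 0 ↔ f / u ∈ (lp w).O := by
  obtain ⟨c, hc, rfl, h2⟩ := h.lp'
  rw [h2] at hf ⊢
  exact ker_p0 D.rf hc _ hf

/-- a point over `z` at which a local equation vanishes is the point of the end -/
theorem Wit.eq (h : D.Wit z u w) {w' : B.Pt} (h1 : ∀ a ∈ (lp z).O, D.ρ a ∈ (lp w').O)
    (h2 : u ∈ (lp w').O) (h3 : ev u w' = 0) : w = w' := by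
  obtain ⟨hu, -, -, -, h5⟩ := h
  refine eq_of_le ?_
  have h4 := lpR_le hu h1 h2
  rw [show (lp w').v u = 0 from h3] at h4
  rwa [h5]

theorem isDv' {a : BD ℂ B.F} (h1 : ∀ z, ∃ u w, D.Wit z u w ∧ At a w u⁻¹)
    (h2 : ∀ w, w ∉ Set.range D.i.map → At a w 1) : IsDv D.i a :=
  ⟨D.isEmb, h2, fun z => by
    obtain ⟨u, w, h3, h4⟩ := h1 z
    obtain rfl := h3.map
    exact ⟨u, h3.mem, h4, fun _ hf => h3.ker hf⟩⟩

/-- the difference of two divisors, given by local generators -/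
theorem isDv_sub' {a b : BD ℂ B.F}
    (h1 : ∀ z, ∃ u w f, D.Wit z u w ∧ At a w f ∧ At b w (u * f))
    (h2 : ∀ w, w ∉ Set.range D.i.map → ∃ f, At a w f ∧ At b w f) : IsDv D.i (a - b) := by
  refine isDv' (fun z => ?_) fun w hw => ?_
  · obtain ⟨u, w, f, h3, h4, h5⟩ := h1 z
    refine ⟨u, w, h3, ?_⟩
    have h6 := h4.sub h5
    rwa [div_mul_cancel_right₀ h4.ne] at h6
  · obtain ⟨f, h3, h4⟩ := h2 w hw
    simpa only [div_self h3.ne] using h3.sub h4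

/-- the zero divisor of a section `s` of `a` -/
theorem isDv_sec' {a : BD ℂ B.F} {s : B.F} (hs : s ≠ 0)
    (h1 : ∀ z, ∃ u w, D.Wit z u w ∧ At a w (s / u))
    (h2 : ∀ w, ¬ At a w s → w ∈ Set.range D.i.map) : IsDv D.i (a - pr ℂ s) :=
  isDv_sub' (fun z => by
    obtain ⟨u, w, h3, h4⟩ := h1 z
    exact ⟨u, w, _, h3, h4, by rw [mul_div_cancel₀ _ h3.ne]; exact at_pr _ hs⟩)
    fun w hw => ⟨s, by_contra fun h => hw (h2 w h), at_pr _ hs⟩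

end End

section Mk

variable {M E : Type} [Field M] [Algebra ℂ M] [Field E] [Algebra ℂ E] {X : PModel ℂ M}
  {B : PModel ℂ E} {ρ : M →ₐ[ℂ] E} {t : E} (h : IsRF ρ t)
  (H : ∀ z : Pts X, ∃ (u : E) (hu : IsRF ρ u) (c : M), c ≠ 0 ∧ u = t * ρ c ∧
    ∃ w : Pts B, lp w = lpR hu (lp z) 0)

/-- the end given by arbitrary witnesses (`ρ`, `t` are the given ones by `rfl`) -/
def mkEnd : End (sv X) (sv B) where
  ρ := ρ
  t := t
  rf := h
  c z := (H z).choose_spec.choose_spec.choose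
  c_ne z := (H z).choose_spec.choose_spec.choose_spec.1
  ex z := by
    obtain ⟨-, h1, w, h2⟩ := (H z).choose_spec.choose_spec.choose_spec
    refine ⟨w, h2.trans ?_⟩
    congr 1
    exact h1.trans (mul_comm _ _)

theorem mkEnd_ρ : (mkEnd h H).ρ = ρ := rfl

theorem mkEnd_t : (mkEnd h H).t = t := rfl

theorem mkEnd_p : (mkEnd h H).i.p = plcR h (Plc.ofHom (AlgHom.id ℂ M)) 0 := rfl

include H in
/-- **the end** -/
theorem exists_end : ∃ i : Hom (sv X) (sv B), i.p = plcR h (Plc.ofHom (AlgHom.id ℂ M)) 0 ∧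
    IsEmb i ∧ (∀ a, ρ a ∈ i.p.O ∧ i.p.π (ρ a) = a) ∧ (t ∈ i.p.O ∧ i.p.π t = 0) ∧
    ∀ (z : Pts X) (u : E) (hu : IsRF ρ u) (c : M) (w : Pts B), c ≠ 0 → u = t * ρ c →
      lp w = lpR hu (lp z) 0 → i.map z = w ∧ ∀ f ∈ (lp w).O, i.p.π f = 0 ↔ f / u ∈ (lp w).O :=
  ⟨(mkEnd h H).i, rfl, (mkEnd h H).isEmb, p0_ρ h, p0_t h, fun z u hu c w h1 h2 h3 =>
    have h4 : (mkEnd h H).Wit z u w := ⟨hu, c, h1, h2, h3⟩
    ⟨h4.map, fun _ hf => h4.ker hf⟩⟩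

end Mk

variable {B Y P : SV}

theorem plcP_ofHom {K F M E : Type} [Field K] [Algebra ℂ K] [Field F] [Algebra ℂ F] [Field M]
    [Algebra ℂ M] [Field E] [Algebra ℂ E] {α : K →ₐ[ℂ] M} {β : F →ₐ[ℂ] M} (pf : IsPF α β)
    {κ : K →ₐ[ℂ] E} {φ : F →ₐ[ℂ] E} (θ : M →ₐ[ℂ] E) (h1 : ∀ a, θ (α a) = κ a)
    (h2 : ∀ b, θ (β b) = φ b) : plcP pf (Plc.ofHom κ) (Plc.ofHom φ) = Plc.ofHom θ := by
  generalize hq : plcP pf (Plc.ofHom κ) (Plc.ofHom φ) = q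
  have h3 : ∀ z, Algebra.TensorProduct.productMap α β z ∈ q.O ∧
      q.π (Algebra.TensorProduct.productMap α β z) =
        θ (Algebra.TensorProduct.productMap α β z) := fun z => by
    induction z with
    | zero => simp
    | tmul a b =>
      have h4 := plcP_mul pf (p := Plc.ofHom κ) (q := Plc.ofHom φ) (a := a) Algebra.mem_top
        (b := b) Algebra.mem_top
      rw [hq] at h4
      rw [Algebra.TensorProduct.productMap_apply_tmul, map_mul, h1, h2]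
      exact h4
    | add x y hx hy =>
      rw [map_add, map_add]
      exact ⟨add_mem hx.1 hy.1, by rw [q.π_add hx.1 hy.1, hx.2, hy.2]⟩
  have h4 : ∀ x, x ∈ q.O ∧ q.π x = θ x := fun x => by
    obtain ⟨_, ⟨a, rfl⟩, _, ⟨b, rfl⟩, hb, rfl⟩ := pf.frac x
    have h5 : q.π (Algebra.TensorProduct.productMap α β b) ≠ 0 :=
      (h3 b).2 ▸ (map_ne_zero θ).2 hb
    exact ⟨Plc.div_mem (h3 a).1 h5, (Plc.π_div (h3 a).1 h5).trans (by
      rw [(h3 a).2, (h3 b).2, ← map_div₀]; rfl)⟩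
  obtain ⟨O, π, _, _, _, _, _⟩ := q
  obtain rfl : O = ⊤ := top_unique fun x _ => (h4 x).1
  obtain rfl : π = θ := funext fun x => (h4 x).2
  rfl

/-- the map to the product is birational -/
theorem bim_of (ζ : Hom B Y) (γ : Hom B P) {κ : Y.F →ₐ[ℂ] B.F} {φ : P.F →ₐ[ℂ] B.F}
    (hz : ζ.p = Plc.ofHom κ) (hg : γ.p = Plc.ofHom φ) (h : IsPF κ φ) : Bim (pair ζ γ) :=
  ⟨pfEquiv (isPF ℂ Y.F P.F) h, by
    rw [pair_p, hz, hg]
    exact plcP_ofHom _ _ (pfEquiv_left _ h) (pfEquiv_right _ h),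
    (pfEquiv (isPF ℂ Y.F P.F) h).surjective⟩

theorem iso_of_of (μ : Hom B Y) (w : B.Pt) {A : Set B.F}
    (hw : (lp w).Of (Algebra.adjoin ℂ A))
    (hA : ∀ g ∈ A, ∃ f ∈ (lp (μ.map w)).O, μ.p.π f = g) : Iso μ w := by
  have h2 : ∀ a ∈ Algebra.adjoin ℂ A, ∃ f ∈ (lp (μ.map w)).O, μ.p.π f = a := fun a ha => by
    refine Algebra.adjoin_induction (p := fun a _ => ∃ f ∈ (lp (μ.map w)).O, μ.p.π f = a)
      hA (fun c => ⟨_, algebraMap_mem _ c, μ.p.π_alg c⟩) ?_ ?_ ha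
    · rintro _ _ - - ⟨f, hf, rfl⟩ ⟨g, hg, rfl⟩
      exact ⟨_, add_mem hf hg, μ.p.π_add (μ.mem_O hf) (μ.mem_O hg)⟩
    · rintro _ _ - - ⟨f, hf, rfl⟩ ⟨g, hg, rfl⟩
      exact ⟨_, mul_mem hf hg, μ.p.π_mul (μ.mem_O hf) (μ.mem_O hg)⟩
  intro g hg
  obtain ⟨a, ha, c, hc, h0, h3⟩ := hw.loc g hg
  obtain ⟨a, ha', rfl⟩ := h2 a ha
  obtain ⟨c, hc', rfl⟩ := h2 c hc
  have h4 := LP.ne_zero_of_ne h0
  have h5 : ev c (μ.map w) ≠ 0 := (μ.ev_map hc').symm ▸ h0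
  exact ⟨a / c, LP.div_mem ha' h5, by
    rw [Plc.π_div (μ.mem_O ha') h4, ← h3, mul_div_cancel_right₀ _ h4]⟩

/-- the map to the product is an immersion at `w` -/
theorem iso_of (ζ : Hom B Y) (γ : Hom B P) (w : B.Pt) {A : Set B.F}
    (hw : (lp w).Of (Algebra.adjoin ℂ A))
    (hA : ∀ g ∈ A, (∃ f ∈ (lp (ζ.map w)).O, ζ.p.π f = g) ∨
      ∃ f ∈ (lp (γ.map w)).O, γ.p.π f = g) : Iso (pair ζ γ) w := by
  refine iso_of_of _ w hw fun g hg => ?_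
  rw [pair_map]
  rcases hA g hg with ⟨f, hf, rfl⟩ | ⟨f, hf, rfl⟩
  · exact ⟨_, by simpa using mem_mk (isPF ℂ Y.F P.F) hf (one_mem (lp (γ.map w)).O),
      (plcP_left _ γ.p (ζ.mem_O hf)).2⟩
  · exact ⟨_, by simpa using mem_mk (isPF ℂ Y.F P.F) (one_mem (lp (ζ.map w)).O) hf,
      (plcP_right _ ζ.p (γ.mem_O hf)).2⟩

end Crest.Agent.X262.End79
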